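import Vale.Agent.P113.H195.Part2cR

/-!
# P113, part 3a: `vel S v` solves the Navier-Stokes equations with zero pressure
-/

open MeasureTheory Set
open scoped ContDiff

namespace Vale.Agent.P113.H2

open Vale.Agent.P113.H195 (Part2cR)

/-! ## Partial derivatives of smooth functions -/

/-- partial derivative of a function on `ℝ³` -/
noncomputable def pd (k : Fin 3) (G : (Fin 3 → ℝ) → ℝ) (x : Fin 3 → ℝ) : ℝ :=
  fderiv ℝ G x (Pi.single k 1)

theorem hasDerivAt_update {G : (Fin 3 → ℝ) → ℝ} (hG : ContDiff ℝ ∞ G) (x : Fin 3 → ℝ) (k : Fin 3)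
    (s : ℝ) : HasDerivAt (fun s => G (Function.update x k s)) (pd k G (Function.update x k s)) s := by
  have h1 : HasFDerivAt G (fderiv ℝ G (Function.update x k s)) (Function.update x k s) :=
    (hG.differentiable (by simp)).differentiableAt.hasFDerivAt
  have h2 : HasDerivAt (fun s => Function.update x k s) (Pi.single k 1) s := by
    rw [hasDerivAt_pi]
    intro i
    by_cases h : i = k
    · subst h
      simpa using hasDerivAt_id' s
    · simp only [Function.update_of_ne h]
      rw [Pi.single_eq_of_ne h]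
      exact hasDerivAt_const s (x i)
  exact h1.comp_hasDerivAt s h2

theorem contDiff_pd {G : (Fin 3 → ℝ) → ℝ} (hG : ContDiff ℝ ∞ G) (k : Fin 3) :
    ContDiff ℝ ∞ (pd k G) := by
  have h := hG.fderiv_right (m := ∞) (by simp)
  exact h.clm_apply contDiff_const

/-! ## Sums of products -/

section Sum

variable {ι : Type} [Fintype ι] {A : ℝ → ℝ} {c : ι → ℝ → ℝ} {G : ι → (Fin 3 → ℝ) → ℝ}

theorem hasDx_sum (hG : ∀ j, ContDiff ℝ ∞ (G j)) (k : Fin 3) (t : ℝ) (x : Fin 3 → ℝ) (s : ℝ) :
    HasDerivAt (fun s => A t + ∑ j, c j t * G j (Function.update x k s))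
      (∑ j, c j t * pd k (G j) (Function.update x k s)) s := by
  have h : HasDerivAt (fun s => ∑ j, c j t * G j (Function.update x k s))
      (∑ j, c j t * pd k (G j) (Function.update x k s)) s := by
    have := HasDerivAt.fun_sum (u := Finset.univ) (fun j (_ : j ∈ Finset.univ) =>
      (hasDerivAt_update (hG j) x k s).const_mul (c j t))
    exact this
  exact h.const_add (A t)

theorem dx_sum (hG : ∀ j, ContDiff ℝ ∞ (G j)) (k : Fin 3) :
    dx k (fun t x => A t + ∑ j, c j t * G j x) = fun t x => ∑ j, c j t * pd k (G j) x := by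
  funext t x
  rw [dx, (hasDx_sum hG k t x (x k)).deriv]
  simp

theorem dx_sum' (hG : ∀ j, ContDiff ℝ ∞ (G j)) (k : Fin 3) :
    dx k (fun t x => ∑ j, c j t * G j x) = fun t x => ∑ j, c j t * pd k (G j) x := by
  have := dx_sum (A := fun _ => 0) (c := c) hG k
  simpa using this

theorem hasDx_sum' (hG : ∀ j, ContDiff ℝ ∞ (G j)) (k : Fin 3) (I : Set ℝ) :
    HasDx I k (fun t x => ∑ j, c j t * G j x) := by
  intro t _ x
  have := (hasDx_sum (A := fun _ => 0) (c := c) hG k t x (x k)).differentiableAt
  simpa using this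

theorem hasDt_sum (hA : ContDiff ℝ ∞ A) (hc : ∀ j, ContDiff ℝ ∞ (c j)) (t : ℝ) (x : Fin 3 → ℝ) :
    HasDerivAt (fun t => A t + ∑ j, c j t * G j x) (deriv A t + ∑ j, deriv (c j) t * G j x) t := by
  have hA' : HasDerivAt A (deriv A t) t := ((hA.differentiable (by simp)) t).hasDerivAt
  refine hA'.add ?_
  refine HasDerivAt.fun_sum (u := Finset.univ) (fun j _ => ?_)
  exact (((hc j).differentiable (by simp)) t).hasDerivAt.mul_const (G j x)

theorem contDiff_sum (hA : ContDiff ℝ ∞ A) (hc : ∀ j, ContDiff ℝ ∞ (c j))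
    (hG : ∀ j, ContDiff ℝ ∞ (G j)) :
    ContDiff ℝ ∞ (fun z : ℝ × (Fin 3 → ℝ) => A z.1 + ∑ j, c j z.1 * G j z.2) := by
  refine (hA.comp contDiff_fst).add ?_
  refine ContDiff.sum (fun j _ => ?_)
  exact ((hc j).comp contDiff_fst).mul ((hG j).comp contDiff_snd)

end Sum

/-! ## Shears -/

theorem optFn_contDiff (h2a : Part2a) {h : Option Plateau} (hh : ∀ P, h = some P → P.Ok) :
    ContDiff ℝ ∞ (optFn h) := by
  cases h with
  | none => exact contDiff_const
  | some P => exact (h2a.2 P (hh P rfl)).1

theorem fn_add_int (h2a : Part2a) {P : Plateau} (hP : P.Ok) (y : ℝ) (n : ℤ) :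
    P.fn (y + n) = P.fn y := by
  have h : Function.Periodic P.fn 1 := (h2a.2 P hP).2.1
  have := h.int_mul n y
  simpa using this

theorem optFn_add_int (h2a : Part2a) {h : Option Plateau} (hh : ∀ P, h = some P → P.Ok)
    (y : ℝ) (n : ℤ) : optFn h (y + n) = optFn h y := by
  cases h with
  | none => rfl
  | some P => exact fn_add_int h2a (hh P rfl) y n

theorem atom_contDiff (h2a : Part2a) {A : Atom} (hA : ∀ i P, A.h i = some P → P.Ok) :
    ContDiff ℝ ∞ A.eval := by
  unfold Atom.eval
  refine contDiff_const.mul ?_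
  refine contDiff_prod (fun i _ => ?_)
  exact (optFn_contDiff h2a (hA i)).comp (contDiff_apply ℝ ℝ i)

theorem list_sum_contDiff {α : Type} (L : List α) (F : α → (Fin 3 → ℝ) → ℝ)
    (h : ∀ a ∈ L, ContDiff ℝ ∞ (F a)) : ContDiff ℝ ∞ (fun x => (L.map fun a => F a x).sum) := by
  induction L with
  | nil => exact contDiff_const
  | cons a L ih =>
    simp only [List.map_cons, List.sum_cons]
    exact (h a (by simp)).add (ih fun b hb => h b (by simp [hb]))

theorem g_contDiff (h2a : Part2a) {s : Shear} (hs : s.Ok) : ContDiff ℝ ∞ s.g :=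
  list_sum_contDiff s.atoms (fun A x => A.eval x) fun A hA => atom_contDiff h2a (hs A hA).2

theorem g_periodic (h2a : Part2a) {s : Shear} (hs : s.Ok) (x : Fin 3 → ℝ) (k : Fin 3 → ℤ) :
    s.g (fun i => x i + k i) = s.g x := by
  unfold Shear.g
  congr 1
  refine List.map_congr_left fun A hA => ?_
  unfold Atom.eval
  congr 1
  refine Finset.prod_congr rfl fun i _ => ?_
  exact optFn_add_int h2a ((hs A hA).2 i) (x i) (k i)

theorem g_update {s : Shear} (hs : s.Ok) (x : Fin 3 → ℝ) (r : ℝ) :
    s.g (Function.update x s.l r) = s.g x := by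
  unfold Shear.g
  congr 1
  refine List.map_congr_left fun A hA => ?_
  unfold Atom.eval
  congr 1
  refine Finset.prod_congr rfl fun i _ => ?_
  by_cases h : i = s.l
  · subst h
    rw [(hs A hA).1]
    rfl
  · rw [Function.update_of_ne h]

theorem pd_g (h2a : Part2a) {s : Shear} (hs : s.Ok) (x : Fin 3 → ℝ) : pd s.l s.g x = 0 := by
  have h1 := hasDerivAt_update (g_contDiff h2a hs) x s.l (x s.l)
  simp only [g_update hs, Function.update_eq_self] at h1
  exact h1.unique (hasDerivAt_const _ _)

/-! ## Time profiles -/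

theorem theta_add_nat {N j : ℕ} (h2c : Part2cR) (hj : j < N) (t : ℝ) (m : ℕ) :
    theta N j (t + m) = theta N j t := by
  have h : Function.Periodic (theta N j) 1 := (h2c.2.2.2.2.2 N j hj).2.2.1
  have := h.nat_mul m t
  simpa using this

/-- if the profile does not vanish at `t ≥ 0`, then `t` mod 1 lies in the window -/
theorem theta_ne_zero {N j : ℕ} (h2c : Part2cR) (hj : j < N) {t : ℝ} (ht : 0 ≤ t)
    (h : theta N j t ≠ 0) : 1 / 2 + (j : ℝ) / (2 * N) < Int.fract t ∧
      Int.fract t < 1 / 2 + ((j : ℝ) + 1) / (2 * N) := by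
  obtain ⟨-, -, -, h1, h2, -⟩ := h2c.2.2.2.2.2 N j hj
  have h3 : theta N j t = theta N j (Int.fract t) := by
    have h4 := theta_add_nat h2c hj (Int.fract t) ⌊t⌋₊
    rw [← h4]
    congr 1
    have : (⌊t⌋₊ : ℝ) = (⌊t⌋ : ℝ) := by
      rw [← Int.cast_natCast, Int.natCast_floor_eq_floor ht]
    rw [this, Int.fract_add_floor]
  rw [h3] at h
  constructor
  · by_contra hcon
    exact h (h1 _ (Int.fract_nonneg t) (not_lt.1 hcon))
  · by_contra hcon
    exact h (h2 _ (not_lt.1 hcon) (Int.fract_lt_one t).le)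

theorem theta_mul_theta {N j m : ℕ} (h2c : Part2cR) (hj : j < N) (hm : m < N) (hjm : j ≠ m)
    {t : ℝ} (ht : 0 ≤ t) : theta N j t * theta N m t = 0 := by
  by_contra hcon
  obtain ⟨a1, a2⟩ := theta_ne_zero h2c hj ht (left_ne_zero_of_mul hcon)
  obtain ⟨b1, b2⟩ := theta_ne_zero h2c hm ht (right_ne_zero_of_mul hcon)
  have hN : (0 : ℝ) < 2 * N := by
    have : 0 < N := by omega
    positivity
  rcases lt_or_gt_of_ne hjm with h | h
  · have h' : (j : ℝ) + 1 ≤ m := by exact_mod_cast h
    have : ((j : ℝ) + 1) / (2 * N) ≤ (m : ℝ) / (2 * N) := by gcongr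
    linarith
  · have h' : (m : ℝ) + 1 ≤ j := by exact_mod_cast h
    have : ((m : ℝ) + 1) / (2 * N) ≤ (j : ℝ) / (2 * N) := by gcongr
    linarith

theorem theta0_mul_theta {N j : ℕ} (h2c : Part2cR) (hj : j < N) {t : ℝ} (ht : 0 ≤ t) :
    theta0 t * theta N j t = 0 := by
  by_contra hcon
  obtain ⟨a1, a2⟩ := theta_ne_zero h2c hj ht (right_ne_zero_of_mul hcon)
  have h1 : t < 1 / 2 := by
    by_contra h
    exact left_ne_zero_of_mul hcon (h2c.2.2.2.1 t (not_lt.1 h))
  have h2 : Int.fract t ≤ t := by
    have h4 : (0 : ℝ) ≤ ⌊t⌋ := by exact_mod_cast Int.floor_nonneg.2 ht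
    have h5 : (⌊t⌋ : ℝ) + Int.fract t = t := Int.floor_add_fract t
    linarith
  have h3 : (0 : ℝ) ≤ (j : ℝ) / (2 * N) := by positivity
  linarith

/-! ## The main theorem -/

section Main

variable (S : List Shear) (v : Fin 3 → ℝ)

/-- coefficient functions -/
noncomputable def cf (i : Fin 3) (j : Fin S.length) (t : ℝ) : ℝ :=
  if (S.get j).l = i then theta S.length j t else 0

theorem vel_eq (i : Fin 3) : (fun t x => vel S v t x i) =
    fun t x => theta0 t * v i + ∑ j, cf S i j t * (S.get j).g x := by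
  funext t x
  simp only [vel, cf]
  congr 1
  refine Finset.sum_congr rfl fun j _ => ?_
  split_ifs <;> simp

variable {S}

theorem cf_contDiff (h2c : Part2cR) (i : Fin 3) (j : Fin S.length) : ContDiff ℝ ∞ (cf S i j) := by
  unfold cf
  split_ifs
  · exact (h2c.2.2.2.2.2 _ j j.2).1
  · exact contDiff_const

theorem deriv_cf (i : Fin 3) (j : Fin S.length) (t : ℝ) :
    deriv (cf S i j) t = if (S.get j).l = i then deriv (theta S.length j) t else 0 := by
  unfold cf
  split_ifs
  · rfl
  · simp

theorem g_smooth (h2a : Part2a) (hS : ∀ s ∈ S, s.Ok) (j : Fin S.length) :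
    ContDiff ℝ ∞ (S.get j).g := g_contDiff h2a (hS _ (List.get_mem S j))

theorem A_contDiff (h2c : Part2cR) (i : Fin 3) : ContDiff ℝ ∞ (fun t => theta0 t * v i) :=
  h2c.1.mul contDiff_const

theorem vel_contDiff (h2a : Part2a) (h2c : Part2cR) (hS : ∀ s ∈ S, s.Ok) :
    ContDiff ℝ ∞ (fun z : ℝ × (Fin 3 → ℝ) => vel S v z.1 z.2) := by
  rw [contDiff_pi]
  intro i
  have := contDiff_sum (A_contDiff v h2c i) (cf_contDiff (S := S) h2c i) (g_smooth h2a hS)
  have h2 : (fun z : ℝ × (Fin 3 → ℝ) => vel S v z.1 z.2 i) =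
      fun z => theta0 z.1 * v i + ∑ j, cf S i j z.1 * (S.get j).g z.2 := by
    funext z
    exact congrFun (congrFun (vel_eq S v i) z.1) z.2
  rw [h2]
  exact this

theorem conv_zero (h2a : Part2a) (h2c : Part2cR) (hS : ∀ s ∈ S, s.Ok) (i : Fin 3) {t : ℝ}
    (ht : 0 ≤ t) (x : Fin 3 → ℝ) :
    ∑ k, vel S v t x k * ∑ m, cf S i m t * pd k (S.get m).g x = 0 := by
  have h1 : ∀ k, vel S v t x k * ∑ m, cf S i m t * pd k (S.get m).g x =
      ∑ m, (vel S v t x k * cf S i m t) * pd k (S.get m).g x := by
    intro k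
    rw [Finset.mul_sum]
    exact Finset.sum_congr rfl fun m _ => by ring
  simp only [h1]
  rw [Finset.sum_comm]
  refine Finset.sum_eq_zero fun m _ => ?_
  have h2 : ∀ k, vel S v t x k * cf S i m t =
      if (S.get m).l = k then cf S k m t * (S.get m).g x * cf S i m t else 0 := by
    intro k
    have h3 := congrFun (congrFun (vel_eq S v k) t) x
    change vel S v t x k = theta0 t * v k + ∑ j, cf S k j t * (S.get j).g x at h3
    rw [h3, add_mul, Finset.sum_mul]
    clear h3
    have h4 : theta0 t * v k * cf S i m t = 0 := by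
      have : theta0 t * cf S i m t = 0 := by
        unfold cf
        split_ifs
        · exact theta0_mul_theta h2c m.2 ht
        · simp
      calc theta0 t * v k * cf S i m t = theta0 t * cf S i m t * v k := by ring
        _ = 0 := by rw [this, zero_mul]
    rw [h4, zero_add]
    rw [Finset.sum_eq_single m]
    · unfold cf
      split_ifs <;> simp
    · intro j _ hjm
      have : cf S k j t * cf S i m t = 0 := by
        unfold cf
        split_ifs
        · exact theta_mul_theta h2c j.2 m.2 (fun h => hjm (Fin.ext h)) ht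
        all_goals simp
      calc cf S k j t * (S.get j).g x * cf S i m t = cf S k j t * cf S i m t * (S.get j).g x := by ring
        _ = 0 := by rw [this, zero_mul]
    · intro h
      exact absurd (Finset.mem_univ m) h
  have h5 : ∀ k, (if (S.get m).l = k then cf S k m t * (S.get m).g x * cf S i m t else 0) *
      pd k (S.get m).g x = 0 := by
    intro k
    split_ifs with h
    · subst h
      rw [pd_g h2a (hS _ (List.get_mem S m)), mul_zero]
    · simp
  exact Finset.sum_eq_zero fun k _ => by rw [h2, h5]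

theorem div_zero (h2a : Part2a) (hS : ∀ s ∈ S, s.Ok) (t : ℝ) (x : Fin 3 → ℝ) :
    ∑ i, ∑ m, cf S i m t * pd i (S.get m).g x = 0 := by
  refine Finset.sum_eq_zero fun i _ => Finset.sum_eq_zero fun m _ => ?_
  unfold cf
  split_ifs with h
  · subst h
    rw [pd_g h2a (hS _ (List.get_mem S m)), mul_zero]
  · simp

theorem part3a (h2a : Part2a) (h2c : Part2cR) : Part3a := by
  intro S hS0 hS v ν f hf
  have hsm := vel_contDiff (S := S) v h2a h2c hS
  refine ⟨hsm, ?_⟩
  have hG := g_smooth h2a hS
  have hdx : ∀ i k, dx k (fun t x => vel S v t x i) =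
      fun t x => ∑ j, cf S i j t * pd k (S.get j).g x := by
    intro i k
    rw [vel_eq, dx_sum hG]
  have hdxx : ∀ i j k, dx k (dx j (fun t x => vel S v t x i)) =
      fun t x => ∑ m, cf S i m t * pd k (pd j (S.get m).g) x := by
    intro i j k
    rw [hdx, dx_sum' fun m => contDiff_pd (hG m) j]
  have hdt : ∀ i t x, HasDerivAt (fun t => vel S v t x i)
      (deriv (fun t => theta0 t * v i) t + ∑ j, deriv (cf S i j) t * (S.get j).g x) t := by
    intro i t x
    have h := hasDt_sum (G := fun j => (S.get j).g) (A_contDiff v h2c i)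
      (cf_contDiff (S := S) h2c i) t x
    have h2 : (fun t => vel S v t x i) =
        fun t => theta0 t * v i + ∑ j, cf S i j t * (S.get j).g x := by
      funext s
      exact congrFun (congrFun (vel_eq S v i) s) x
    rw [h2]
    exact h
  have hdt' : ∀ i t, t ∈ Ici (0 : ℝ) → ∀ x, dt (Ici 0) (fun t x => vel S v t x i) t x =
      deriv (fun t => theta0 t * v i) t + ∑ j, deriv (cf S i j) t * (S.get j).g x := by
    intro i t ht x
    exact (hdt i t x).hasDerivWithinAt.derivWithin ((uniqueDiffOn_Ici 0) t ht)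
  have hderivsmooth : ∀ {g : ℝ → ℝ}, ContDiff ℝ ∞ g → ContDiff ℝ ∞ (deriv g) := by
    intro g hg
    have h := contDiff_infty_iff_deriv.1 hg
    exact h.2
  have hcontsum : ∀ (c : Fin S.length → ℝ → ℝ) (G : Fin S.length → (Fin 3 → ℝ) → ℝ),
      (∀ j, ContDiff ℝ ∞ (c j)) → (∀ j, ContDiff ℝ ∞ (G j)) →
      Continuous (fun z : ℝ × (Fin 3 → ℝ) => ∑ j, c j z.1 * G j z.2) := by
    intro c G hc hG'
    have := contDiff_sum (A := fun _ => 0) contDiff_const hc hG'
    simpa using this.continuous
  refine
    { periodic_u := ?_, periodic_p := ?_, hasDt := ?_, hasDx := ?_, hasDxx := ?_, hasDx_p := ?_,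
      cont_u := ?_, cont_dt := ?_, cont_dx := ?_, cont_dxx := ?_, cont_p := ?_, cont_dx_p := ?_,
      momentum := ?_, incompressible := ?_, initial := ?_, mean_p := ?_ }
  · intro i t _ x k
    simp only [vel]
    congr 1
    refine Finset.sum_congr rfl fun j _ => ?_
    rw [g_periodic h2a (hS _ (List.get_mem S j))]
  · intro t _ x k
    rfl
  · intro i t _ x
    exact (hdt i t x).differentiableAt.differentiableWithinAt
  · intro i k t _ x
    rw [vel_eq]
    exact (hasDx_sum (A := fun t => theta0 t * v i) (c := cf S i) hG k t x (x k)).differentiableAt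
  · intro i j k
    rw [hdx]
    exact hasDx_sum' (fun m => contDiff_pd (hG m) j) k _
  · intro j t _ x
    exact differentiableAt_const _
  · intro i
    exact ((contDiff_pi.1 hsm i).continuous).continuousOn
  · intro i
    have h : ContinuousOn (fun z : ℝ × (Fin 3 → ℝ) =>
        deriv (fun t => theta0 t * v i) z.1 + ∑ j, deriv (cf S i j) z.1 * (S.get j).g z.2)
        (Ici 0 ×ˢ univ) := by
      refine Continuous.continuousOn ?_
      refine ((hderivsmooth (A_contDiff v h2c i)).continuous.comp continuous_fst).add ?_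
      exact hcontsum _ _ (fun j => hderivsmooth (cf_contDiff h2c i j)) hG
    refine h.congr ?_
    rintro ⟨t, x⟩ ⟨ht, -⟩
    exact hdt' i t ht x
  · intro i j
    rw [hdx]
    exact (hcontsum _ _ (cf_contDiff h2c i) fun m => contDiff_pd (hG m) j).continuousOn
  · intro i j k
    rw [hdxx]
    exact (hcontsum _ _ (cf_contDiff h2c i) fun m =>
      contDiff_pd (contDiff_pd (hG m) j) k).continuousOn
  · exact continuousOn_const
  · intro j
    have : dx j (fun (_ : ℝ) (_ : Fin 3 → ℝ) => (0 : ℝ)) = fun _ _ => 0 := by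
      funext t x
      simp [dx]
    rw [this]
    exact continuousOn_const
  · intro t ht x i
    rw [hdt' i t ht x, hf t ht x i]
    have h1 : ∑ j, vel S v t x j * dx j (fun t x => vel S v t x i) t x = 0 := by
      simp only [hdx]
      exact conv_zero v h2a h2c hS i ht x
    have h2 : dx i (fun (_ : ℝ) (_ : Fin 3 → ℝ) => (0 : ℝ)) t x = 0 := by simp [dx]
    rw [h1, h2]
    simp only [hdxx]
    have h3 : deriv (fun t => theta0 t * v i) t = deriv theta0 t * v i := by
      rw [deriv_mul_const_field]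
    rw [h3, perForce]
    have h4 : ∀ j : Fin S.length, ∀ k, dx k (dx k (fun _ x => (S.get j).g x)) t x =
        pd k (pd k (S.get j).g) x := by
      intro j k
      have e1 : dx k (fun (_ : ℝ) x => (S.get j).g x) = fun _ x => pd k (S.get j).g x := by
        funext t x
        rw [dx, (hasDerivAt_update (hG j) x k (x k)).deriv, Function.update_eq_self]
      rw [e1, dx, (hasDerivAt_update (contDiff_pd (hG j) k) x k (x k)).deriv,
        Function.update_eq_self]
    simp only [h4, deriv_cf]
    rw [Finset.sum_comm]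
    have h5 : ∀ j : Fin S.length, (if (S.get j).l = i then
        deriv (theta S.length j) t * (S.get j).g x -
          ν * (theta S.length j t * ∑ k, pd k (pd k (S.get j).g) x) else 0) =
        (if (S.get j).l = i then deriv (theta S.length j) t else 0) * (S.get j).g x -
          ν * ∑ k, cf S i j t * pd k (pd k (S.get j).g) x := by
      intro j
      unfold cf
      split_ifs
      · rw [Finset.mul_sum]
      · simp
    simp only [h5]
    rw [Finset.sum_sub_distrib, Finset.mul_sum]
    ring
  · intro t _ x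
    simp only [hdx]
    exact div_zero h2a hS t x
  · intro x
    funext i
    simp only [vel]
    have h0 : theta0 0 = 0 := h2c.2.2.1 0 le_rfl
    have h1 : ∀ j : Fin S.length, theta S.length j 0 = 0 := by
      intro j
      exact (h2c.2.2.2.2.2 _ j j.2).2.2.2.1 0 le_rfl (by positivity)
    simp [h0, h1]
  · intro t _
    simp

end Main

end Vale.Agent.P113.H2
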