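import Vale.Agent.P113.Iface

/-!
# P113, part 8: assembly of the parts
-/

open MeasureTheory Set
open scoped ContDiff

namespace Vale.Agent.P113

/-! ## Restriction of classical solutions -/

theorem dt_Icc_eq {g : ℝ → (Fin 3 → ℝ) → ℝ} (h : HasDt (Ici 0) g) {T : ℝ} (hT : 0 < T)
    {t : ℝ} (ht : t ∈ Icc (0 : ℝ) T) (x : Fin 3 → ℝ) : dt (Icc 0 T) g t x = dt (Ici 0) g t x := by
  have h1 : DifferentiableWithinAt ℝ (fun s => g s x) (Ici 0) t := h t ht.1 x
  have h2 := h1.hasDerivWithinAt.mono (Icc_subset_Ici_self : Icc (0 : ℝ) T ⊆ Ici 0)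
  exact h2.derivWithin ((uniqueDiffOn_Icc hT) t ht)

theorem IsClassicalSolution.restrict {ν : ℝ} {f : ℝ → (Fin 3 → ℝ) → (Fin 3 → ℝ)}
    {u : ℝ → (Fin 3 → ℝ) → (Fin 3 → ℝ)} {p : ℝ → (Fin 3 → ℝ) → ℝ}
    (h : IsClassicalSolution ν f (Ici 0) u p) {T : ℝ} (hT : 0 < T) :
    IsClassicalSolution ν f (Icc 0 T) u p where
  periodic_u i t ht := h.periodic_u i t ht.1
  periodic_p t ht := h.periodic_p t ht.1
  hasDt i t ht x := (h.hasDt i t ht.1 x).mono Icc_subset_Ici_self
  hasDx i j t ht := h.hasDx i j t ht.1
  hasDxx i j k t ht := h.hasDxx i j k t ht.1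
  hasDx_p j t ht := h.hasDx_p j t ht.1
  cont_u i := (h.cont_u i).mono (prod_mono Icc_subset_Ici_self subset_rfl)
  cont_dt i := by
    refine ((h.cont_dt i).mono (prod_mono Icc_subset_Ici_self subset_rfl)).congr ?_
    rintro ⟨t, x⟩ ⟨ht, -⟩
    exact dt_Icc_eq (h.hasDt i) hT ht x
  cont_dx i j := (h.cont_dx i j).mono (prod_mono Icc_subset_Ici_self subset_rfl)
  cont_dxx i j k := (h.cont_dxx i j k).mono (prod_mono Icc_subset_Ici_self subset_rfl)
  cont_p := h.cont_p.mono (prod_mono Icc_subset_Ici_self subset_rfl)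
  cont_dx_p j := (h.cont_dx_p j).mono (prod_mono Icc_subset_Ici_self subset_rfl)
  momentum t ht x i := by
    rw [dt_Icc_eq (h.hasDt i) hT ht x]
    exact h.momentum t ht.1 x i
  incompressible t ht := h.incompressible t ht.1
  initial := h.initial
  mean_p t ht := h.mean_p t ht.1

/-! ## The transient term -/

theorem iteratedDeriv_one_rho_eq_zero {s : ℝ} (hs : 1 < s) : iteratedDeriv 1 rho s = 0 := by
  rw [iteratedDeriv_one]
  have h : rho =ᶠ[nhds s] fun _ => 0 := by
    filter_upwards [lt_mem_nhds hs] with r hr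
    rw [rho, if_neg]
    rw [abs_of_pos (by linarith)]
    linarith
  rw [h.deriv_eq]
  simp

theorem transTerm_eval (q : RatCode) (ν t : ℝ) (x : Fin 3 → ℝ) :
    (transTerm q).eval ν t x = q.val * kappa⁻¹ * deriv rho (4 * t - 1) := by
  simp [Term.eval, transTerm, timeFactor, spaceFactor, BumpCode.eval, RatCode.val,
    iteratedDeriv_one]

theorem transTerm_valid (q : RatCode) : (transTerm q).Valid := by
  refine ⟨by simp [transTerm], ?_, by simp [transTerm], by simp [transTerm],
    by simp [transTerm]⟩
  intro g hg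
  simp only [transTerm, List.mem_singleton] at hg
  subst hg
  refine ⟨by norm_num [RatCode.val], ?_⟩
  intro l hl
  simp at hl

theorem deriv_theta0 (t : ℝ) : deriv theta0 t = 16 * kappa⁻¹ * deriv rho (4 * t - 1) := by
  have h1 : deriv (fun t => rho (4 * t - 1)) t = 4 * deriv rho (4 * t - 1) := by
    have := deriv_comp_mul_left (4 : ℝ) (fun s => rho (s - 1)) t
    rw [this]
    rw [deriv_comp_sub_const]
    rfl
  have h2 : theta0 = fun t => 4 * kappa⁻¹ * rho (4 * t - 1) := rfl
  rw [h2, deriv_const_mul_field, h1]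
  ring

/-! ## The initial point -/

/-- numerator of the encoding of `replicate k c` -/
def repNum (n c : ℕ) : ℕ → ℕ
  | 0 => 0
  | k + 1 => 2 * c * (2 * n) ^ k + repNum n c k

theorem enc_replicate (n c : ℕ) (hn : 0 < n) (k : ℕ) :
    enc n (List.replicate k c) = repNum n c k / (2 * n : ℝ) ^ k := by
  induction k with
  | zero => simp [enc, repNum]
  | succ k ih =>
    rw [List.replicate_succ, enc, ih, repNum]
    have : (n : ℝ) ≠ 0 := by positivity
    push_cast
    field_simp
    ring

theorem computable_pow (b : ℕ) : Primrec fun k : ℕ => b ^ k := by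
  have h := Primrec.nat_rec' (α := ℕ) (β := ℕ) (f := fun k => k) (g := fun _ => 1)
    (h := fun _ p => p.2 * b) Primrec.id (Primrec.const 1)
    (by exact (Primrec.nat_mul.comp (Primrec.snd.comp Primrec.snd) (Primrec.const b)).to₂)
  refine h.of_eq fun k => ?_
  induction k with
  | zero => simp
  | succ k ih => simp only [pow_succ] at ih ⊢; rw [← ih]

theorem primrec_repNum (n c : ℕ) : Primrec (repNum n c) := by
  have h := Primrec.nat_rec' (α := ℕ) (β := ℕ) (f := fun k => k) (g := fun _ => 0)
    (h := fun _ p => 2 * c * (2 * n) ^ p.1 + p.2) Primrec.id (Primrec.const 0)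
    (by
      exact (Primrec.nat_add.comp (Primrec.nat_mul.comp (Primrec.const (2 * c))
        ((computable_pow (2 * n)).comp (Primrec.fst.comp Primrec.snd)))
        (Primrec.snd.comp Primrec.snd)).to₂)
  refine h.of_eq fun k => ?_
  induction k with
  | zero => simp [repNum]
  | succ k ih => simp only [repNum]; rw [← ih]

/-- numerators of the coefficients of the transient terms -/
def tNum (n c₀ c₁ y₀ : ℕ) (i : Fin 3) (k : ℕ) : ℕ :=
  match i with
  | 0 => 4 * (2 * c₀ * (2 * n) ^ k + repNum n c₁ k)
  | 1 => 4 * (2 * y₀)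
  | 2 => 0

/-- denominators (minus one) of the coefficients of the transient terms -/
def tDen (n : ℕ) (i : Fin 3) (k : ℕ) : ℕ :=
  match i with
  | 0 => (2 * n) ^ (k + 1) - 1
  | 1 => 2 * n - 1
  | 2 => 0

theorem computable_tNum (n c₀ c₁ y₀ : ℕ) (i : Fin 3) : Computable (tNum n c₀ c₁ y₀ i) := by
  fin_cases i
  · exact (Primrec.nat_mul.comp (Primrec.const 4) (Primrec.nat_add.comp
      (Primrec.nat_mul.comp (Primrec.const (2 * c₀)) (computable_pow (2 * n)))
      (primrec_repNum n c₁))).to_comp
  · exact (Primrec.const (4 * (2 * y₀))).to_comp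
  · exact (Primrec.const 0).to_comp

theorem computable_tDen (n : ℕ) (i : Fin 3) : Computable (tDen n i) := by
  fin_cases i
  · exact (Primrec.nat_sub.comp ((computable_pow (2 * n)).comp Primrec.succ)
      (Primrec.const 1)).to_comp
  · exact (Primrec.const (2 * n - 1)).to_comp
  · exact (Primrec.const 0).to_comp

theorem tRat_val (n c₀ c₁ y₀ : ℕ) (hn : 0 < n) (i : Fin 3) (k : ℕ) :
    (((⟨(tNum n c₀ c₁ y₀ i k : ℤ), tDen n i k⟩ : RatCode).val : ℚ) : ℝ) =
      16 * pos n (c₀ :: List.replicate k c₁, [y₀]) i := by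
  have hn0 : (n : ℝ) ≠ 0 := by positivity
  fin_cases i
  · have h1 : 1 ≤ (2 * n) ^ (k + 1) := Nat.one_le_pow _ _ (by omega)
    simp only [RatCode.val, tNum, tDen, pos, enc, enc_replicate n c₁ hn k]
    push_cast [Nat.cast_sub h1]
    simp
    field_simp
    ring
  · have h1 : 1 ≤ 2 * n := by omega
    simp only [RatCode.val, tNum, tDen, pos, enc]
    push_cast [Nat.cast_sub h1]
    simp
    ring
  · simp [RatCode.val, tNum, tDen, pos]

/-! ## The assembly -/

theorem evalList_append (ν : ℝ) (L L' : List Term) (t : ℝ) (x : Fin 3 → ℝ) :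
    evalList ν (L ++ L') t x = evalList ν L t x + evalList ν L' t x := by
  simp [evalList]

theorem statement_of_parts (h2b : Part2b) (h3a : Part3a) (h3b : Part3b) (h4 : Part4)
    (h5 : Part5) (h6 : Part6) (h7 : Part7) : Statement := by
  obtain ⟨T, c₀, c₁, y₀, hc₀, hc₁, hy₀, hT⟩ := h5 _ h7.1
  obtain ⟨S, hS, hSok, hprop⟩ := h6 T
  choose L hL hLeval using h2b S hSok
  have hp : ∀ (M : Machine) (w : List ℕ),
      (StateTransition.eval T.step (c₀ :: List.replicate (Encodable.encode ((M, w) : Machine × List ℕ)) c₁, [y₀])).Dom ↔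
        M.HaltsOn w := by
    intro M w
    rw [hT]
    constructor
    · rintro ⟨M', w', he, hh⟩
      have := Encodable.encode_injective he
      obtain ⟨rfl, rfl⟩ := Prod.mk.inj this
      exact hh
    · intro hh
      exact ⟨M, w, rfl, hh⟩
  set F : Fin 3 → Machine × List ℕ → List Term := fun i p =>
    L i ++ [transTerm ⟨(tNum T.n c₀ c₁ y₀ i (Encodable.encode p) : ℤ),
      tDen T.n i (Encodable.encode p)⟩] with hF
  have hnp : ∀ q : RatCode, (transTerm q).isPeriodic = false := by
    intro q; simp [transTerm, Term.isPeriodic]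
  refine ⟨0, ![-1 / 8, -1 / 8, 3 / 8], ![3 / 8, 3 / 8, 5 / 8], F, 1, ?_, ?_, ?_⟩
  · intro i
    fin_cases i <;> norm_num
  · refine ⟨?_, ?_, ?_, ?_⟩
    · intro i
      exact h7.2 (L i) (tNum T.n c₀ c₁ y₀ i) (tDen T.n i) (computable_tNum _ _ _ _ i)
        (computable_tDen _ i)
    · intro i M w τ hτ
      rw [hF] at hτ
      simp only [List.mem_append, List.mem_singleton] at hτ
      rcases hτ with hτ | rfl
      · exact (hL i τ hτ).1
      · exact transTerm_valid _
    · intro i M w τ hτ hper ν t x ht
      rw [hF] at hτ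
      simp only [List.mem_append, List.mem_singleton] at hτ
      rcases hτ with hτ | rfl
      · rw [(hL i τ hτ).2] at hper
        exact absurd hper (by simp)
      · rw [transTerm_eval, ← iteratedDeriv_one, iteratedDeriv_one_rho_eq_zero (by linarith),
          mul_zero]
    · intro i M w w'
      simp [hF, List.filter_append, hnp]
  · intro ν hν M w
    set k := Encodable.encode ((M, w) : Machine × List ℕ) with hk
    set v : Fin 3 → ℝ := pos T.n (c₀ :: List.replicate k c₁, [y₀]) with hv
    have hforce : ∀ t, 0 ≤ t → ∀ x i, force ν F M w t x i =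
        deriv theta0 t * v i + perForce S ν i t x := by
      intro t _ x i
      rw [force, hF, evalList_append, hLeval]
      have h1 : evalList ν [transTerm ⟨(tNum T.n c₀ c₁ y₀ i k : ℤ), tDen T.n i k⟩] t x =
          deriv theta0 t * v i := by
        rw [evalList]
        simp only [List.map_cons, List.map_nil, List.sum_cons, List.sum_nil, add_zero]
        rw [transTerm_eval, tRat_val T.n c₀ c₁ y₀ T.n_pos, deriv_theta0, hv]
        ring
      rw [h1]
      ring
    obtain ⟨hsm, hcl⟩ := h3a S hS hSok v ν (force ν F M w) hforce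
    obtain ⟨X, hX, hXu, hXk, hXseg⟩ := h3b S hS hSok v
    have hX0 : ∀ e ∈ c₀ :: List.replicate k c₁, e < T.n := by
      intro e he
      rcases List.mem_cons.1 he with rfl | he
      · exact hc₀
      · rw [List.eq_of_mem_replicate he]
        exact hc₁
    have hY0 : ∀ e ∈ [y₀], e < T.n := by
      intro e he
      rw [List.mem_singleton.1 he]
      exact hy₀
    obtain ⟨hhalt, hnohalt⟩ := hprop _ _ hX0 hY0
    have ha : (fun i => (((0 : Fin 3 → ℚ) i : ℚ) : ℝ)) = (0 : Fin 3 → ℝ) := by
      funext i; simp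
    refine ⟨vel S v, fun _ _ => 0, X, ⟨hsm.contDiffOn, contDiff_const.contDiffOn⟩, hcl, ?_,
      ?_, ?_, ?_⟩
    · intro T' hT' w' q hw'
      exact h4 ν T' _ hν hT' _ _ _ _ (hcl.restrict hT') hw'
    · rw [ha]; exact hX
    · rw [ha]; exact hXu
    · rw [← hp M w]
      constructor
      · rintro ⟨t, ht, hin⟩
        by_contra hcon
        have hbox := hnohalt hcon
        -- all coordinates of `X t` lie in `[0, 1/4]`
        have hXt : 0 ≤ X t 2 ∧ X t 2 ≤ 1 / 4 := by
          obtain ⟨s, hs0, hs1, h | ⟨j, h⟩⟩ := hXseg t ht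
          · rw [h]
            have h2 : v 2 = 0 := by rw [hv]; simp [pos]
            simp [h2]
          · rw [h]
            have ha := hbox j 2
            have hb := hbox (j + 1) 2
            simp only [mem_Icc] at ha hb
            simp only [Pi.add_apply, Pi.smul_apply, smul_eq_mul]
            constructor
            · nlinarith [ha.1, hb.1]
            · nlinarith [ha.2, hb.2]
        obtain ⟨y, hy, hyX⟩ := hin
        have h2 := congrFun hyX 2
        simp only [toTorus] at h2
        have h3 : ((y 2 - X t 2 : ℝ) : UnitAddCircle) = 0 := by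
          rw [AddCircle.coe_sub, h2, sub_self]
        obtain ⟨m, hm⟩ := AddCircle.coe_eq_zero_iff _ |>.1 h3
        have hy2 := hy 2
        simp only [zsmul_eq_mul, mul_one] at hm
        have hlo : (3 / 8 : ℝ) < y 2 := by
          have : ((3 / 8 : ℚ) : ℝ) < y 2 := hy2.1
          norm_num at this
          exact this
        have hhi : y 2 < (5 / 8 : ℝ) := by
          have : y 2 < ((5 / 8 : ℚ) : ℝ) := hy2.2
          norm_num at this
          exact this
        have hm0 : (0 : ℝ) < m := by rw [hm]; linarith [hXt.2]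
        have hm1 : (m : ℝ) < 1 := by rw [hm]; linarith [hXt.1]
        have hm0' : 0 < m := by exact_mod_cast hm0
        have hm1' : m < 1 := by exact_mod_cast hm1
        omega
      · intro hdom
        obtain ⟨j, hj2, hj⟩ := hhalt hdom
        obtain ⟨t, ht, hXt⟩ := hXk j
        refine ⟨t, ht, X t, ?_, rfl⟩
        intro i
        rw [hXt]
        fin_cases i
        · have := hj 0 (by decide)
          simp only [mem_Icc] at this
          constructor
          · norm_num; linarith [this.1]
          · norm_num; linarith [this.2]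
        · have := hj 1 (by decide)
          simp only [mem_Icc] at this
          constructor
          · norm_num; linarith [this.1]
          · norm_num; linarith [this.2]
        · have h2 : orbit S hS v j 2 = 1 / 2 := hj2
          constructor
          · show ((3 / 8 : ℚ) : ℝ) < orbit S hS v j 2
            rw [h2]; norm_num
          · show orbit S hS v j 2 < ((5 / 8 : ℚ) : ℝ)
            rw [h2]; norm_num

end Vale.Agent.P113
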